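import Mathlib
open Finset

namespace Vale.Agent.P054


lemma card_modEq_le (N r v : ℤ) (hr : 0 < r) (hN : 0 ≤ N) :
    (((Icc (-N) N).filter (fun a => a ≡ v [ZMOD r])).card : ℤ) * r ≤ 2 * N + r := by
  have h := Int.Ioc_filter_modEq_card (-N - 1) N hr v
  have hI : Ioc (-N - 1) N = Icc (-N) N := by
    ext x; simp only [mem_Ioc, mem_Icc]; constructor <;> intro h <;> constructor <;> omega
  rw [hI] at h
  rw [h]
  rcases le_total (⌊((N:ℚ) - v) / r⌋ - ⌊(((-N - 1 : ℤ):ℚ) - v) / r⌋) 0 with h0 | h0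
  · rw [max_eq_right h0]; nlinarith
  · rw [max_eq_left h0]
    have hrq : (0:ℚ) < r := by exact_mod_cast hr
    have h1 : (⌊((N:ℚ) - v) / r⌋ : ℚ) ≤ ((N:ℚ) - v) / r := Int.floor_le _
    have h2 : (((-N - 1 : ℤ):ℚ) - v) / r < ⌊(((-N - 1 : ℤ):ℚ) - v) / r⌋ + 1 := Int.lt_floor_add_one _
    have h3 : ((⌊((N:ℚ) - v) / r⌋ - ⌊(((-N - 1 : ℤ):ℚ) - v) / r⌋ : ℤ) : ℚ) * r < 2 * N + 1 + r := by
      push_cast
      push_cast at h2
      have e1 : ((N:ℚ) - v) / r * r = (N:ℚ) - v := by field_simp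
      have e2 : ((-(N:ℚ) - 1) - v) / r * r = (-(N:ℚ) - 1) - v := by field_simp
      nlinarith
    have h4 : (⌊((N:ℚ) - v) / r⌋ - ⌊(((-N - 1 : ℤ):ℚ) - v) / r⌋) * r < 2 * N + 1 + r := by
      exact_mod_cast h3
    omega

/-- number of solutions of a linear congruence in a symmetric interval -/
lemma card_lin_congr_le (N m b c : ℤ) (hm : 0 < m) (hN : 0 ≤ N) :
    (((Icc (-N) N).filter (fun a => m ∣ c - a * b)).card : ℤ) * m ≤ 2 * N * (Int.gcd m b) + m := by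
  set S := (Icc (-N) N).filter (fun a => m ∣ c - a * b) with hS
  rcases S.eq_empty_or_nonempty with h | ⟨a0, ha0⟩
  · rw [h]; simp; positivity
  · have hg : (0:ℤ) < Int.gcd m b := by
      have : Int.gcd m b ≠ 0 := by
        intro h; rw [Int.gcd_eq_zero_iff] at h; omega
      positivity
    obtain ⟨m', hm'⟩ : ((Int.gcd m b : ℤ)) ∣ m := Int.gcd_dvd_left m b
    have hcancel : ∀ a, a * b ≡ a0 * b [ZMOD m] → a ≡ a0 [ZMOD m / (Int.gcd m b : ℤ)] :=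
      fun a h => Int.ModEq.cancel_right_div_gcd hm h
    generalize (Int.gcd m b : ℤ) = g at *
    have hm'pos : 0 < m' := by
      by_contra hcon
      have : m' ≤ 0 := not_lt.mp hcon
      nlinarith
    have hdiv : m / g = m' := by
      rw [hm']; exact Int.mul_ediv_cancel_left _ hg.ne'
    have hsub : S ⊆ (Icc (-N) N).filter (fun a => a ≡ a0 [ZMOD m']) := by
      intro a ha
      rw [hS, mem_filter] at ha ha0
      rw [mem_filter]
      refine ⟨ha.1, ?_⟩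
      have : a * b ≡ a0 * b [ZMOD m] := by
        rw [Int.modEq_iff_dvd]
        have := dvd_sub ha.2 ha0.2
        have e : c - a * b - (c - a0 * b) = a0 * b - a * b := by ring
        rwa [e] at this
      have := hcancel a this
      rwa [hdiv] at this
    have h1 := card_modEq_le N m' a0 hm'pos hN
    have h2 : (S.card : ℤ) ≤ ((Icc (-N) N).filter (fun a => a ≡ a0 [ZMOD m'])).card := by
      exact_mod_cast card_le_card hsub
    calc (S.card : ℤ) * m = (S.card : ℤ) * m' * g := by rw [hm']; ring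
      _ ≤ (((Icc (-N) N).filter (fun a => a ≡ a0 [ZMOD m'])).card * m') * g := by
          gcongr
      _ ≤ (2 * N + m') * g := by gcongr
      _ = 2 * N * g + m := by rw [hm']; ring

lemma card_filter_prod {α β : Type*} (s : Finset α) (t : Finset β) (p : α × β → Prop)
    [DecidablePred p] :
    ((s ×ˢ t).filter p).card = ∑ y ∈ t, (s.filter (fun x => p (x, y))).card := by
  simp only [card_filter]
  rw [sum_product_right]

lemma card_two_congr_le (e b1 b2 k : ℤ) (he : 0 < e) :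
    ((((Icc (-e) e) ×ˢ (Icc (-e) e)).filter
      (fun a : ℤ × ℤ => e ∣ k - a.1 * b1 - a.2 * b2)).card : ℤ)
      ≤ 9 * e * (Int.gcd (Int.gcd e b1) b2) := by
  rw [card_filter_prod]
  have hg1 : (0:ℤ) < Int.gcd e b1 := by
    have : Int.gcd e b1 ≠ 0 := by
      intro h; rw [Int.gcd_eq_zero_iff] at h; omega
    positivity
  have hg : (0:ℤ) < Int.gcd (Int.gcd e b1) b2 := by
    have : Int.gcd (Int.gcd e b1) b2 ≠ 0 := by
      intro h; rw [Int.gcd_eq_zero_iff] at h; omega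
    positivity
  have hg1e : (Int.gcd e b1 : ℤ) ∣ e := Int.gcd_dvd_left e b1
  have hg1b : (Int.gcd e b1 : ℤ) ∣ b1 := Int.gcd_dvd_right e b1
  have hg1le : (Int.gcd e b1 : ℤ) ≤ e := Int.le_of_dvd he hg1e
  have hgood := card_lin_congr_le e (Int.gcd e b1) b2 k hg1 he.le
  set good := (Icc (-e) e).filter (fun a => (Int.gcd e b1 : ℤ) ∣ k - a * b2) with hgooddef
  have hinner : ∀ y ∈ Icc (-e) e,
      ((((Icc (-e) e).filter (fun x => e ∣ k - x * b1 - y * b2)).card : ℕ) : ℤ)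
        ≤ if (Int.gcd e b1 : ℤ) ∣ k - y * b2 then 3 * (Int.gcd e b1 : ℤ) else 0 := by
    intro y _
    split_ifs with hy
    · have h := card_lin_congr_le e e b1 (k - y * b2) he he.le
      have e1 : (Icc (-e) e).filter (fun x => e ∣ k - x * b1 - y * b2)
          = (Icc (-e) e).filter (fun a => e ∣ k - y * b2 - a * b1) := by
        apply filter_congr
        intro x _
        have : k - x * b1 - y * b2 = k - y * b2 - x * b1 := by ring
        rw [this]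
      rw [e1]
      nlinarith
    · have : (Icc (-e) e).filter (fun x => e ∣ k - x * b1 - y * b2) = ∅ := by
        apply filter_eq_empty_iff.mpr
        intro x _ hx
        apply hy
        have h1 : (Int.gcd e b1 : ℤ) ∣ k - x * b1 - y * b2 := hg1e.trans hx
        have h2 : (Int.gcd e b1 : ℤ) ∣ x * b1 := Dvd.dvd.mul_left hg1b x
        have := dvd_add h1 h2
        have e2 : k - x * b1 - y * b2 + x * b1 = k - y * b2 := by ring
        rwa [e2] at this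
      rw [this]; simp
  push_cast
  calc ∑ y ∈ Icc (-e) e, ((((Icc (-e) e).filter (fun x => e ∣ k - x * b1 - y * b2)).card : ℕ) : ℤ)
      ≤ ∑ y ∈ Icc (-e) e, (if (Int.gcd e b1 : ℤ) ∣ k - y * b2 then 3 * (Int.gcd e b1 : ℤ) else 0) :=
        sum_le_sum hinner
    _ = (good.card : ℤ) * (3 * (Int.gcd e b1 : ℤ)) := by
        rw [← sum_filter, sum_const, nsmul_eq_mul]
    _ ≤ 9 * e * (Int.gcd (Int.gcd e b1) b2) := by
        nlinarith

noncomputable def ind (g : ℕ) (x : ℤ) : ℝ := if (g:ℤ) ∣ x then 1 else 0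

lemma ind_nonneg (g : ℕ) (x : ℤ) : 0 ≤ ind g x := by
  unfold ind; split_ifs <;> norm_num

lemma sum_ind_le (T g : ℕ) (hg : 1 ≤ g) (hgT : g ≤ T) :
    ∑ b ∈ Icc (-(T:ℤ)) T, ind g b ≤ 3 * T / g := by
  have h := card_modEq_le T g 0 (by exact_mod_cast hg) (by positivity)
  have e1 : ∑ b ∈ Icc (-(T:ℤ)) T, ind g b
      = (((Icc (-(T:ℤ)) T).filter (fun a => a ≡ 0 [ZMOD (g:ℤ)])).card : ℝ) := by
    unfold ind
    rw [card_filter]
    push_cast
    apply sum_congr rfl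
    intro x _
    have : (x ≡ 0 [ZMOD (g:ℤ)]) ↔ (g:ℤ) ∣ x := by
      rw [Int.modEq_zero_iff_dvd]
    simp only [this]
  rw [e1]
  have hgpos : (0:ℝ) < g := by exact_mod_cast hg
  rw [le_div_iff₀ hgpos]
  have h' : ((((Icc (-(T:ℤ)) T).filter (fun a => a ≡ 0 [ZMOD (g:ℤ)])).card : ℤ) : ℝ) * ((g:ℤ):ℝ)
      ≤ 2 * ((T:ℤ):ℝ) + ((g:ℤ):ℝ) := by exact_mod_cast h
  push_cast at h'
  have : (g:ℝ) ≤ T := by exact_mod_cast hgT
  linarith

lemma sum_e_ind_le (T g : ℕ) (hg : 1 ≤ g) (hgT : g ≤ T) :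
    ∑ e ∈ Icc 1 T, (e:ℝ) * ind g (e:ℤ) ≤ T * (3 * T / g) := by
  have h1 : ∑ e ∈ Icc 1 T, (e:ℝ) * ind g (e:ℤ) ≤ ∑ e ∈ Icc 1 T, (T:ℝ) * ind g (e:ℤ) := by
    apply sum_le_sum
    intro e he
    have : (e:ℝ) ≤ T := by exact_mod_cast (mem_Icc.mp he).2
    exact mul_le_mul_of_nonneg_right this (ind_nonneg _ _)
  have h2 : ∑ e ∈ Icc 1 T, ind g (e:ℤ) ≤ ∑ b ∈ Icc (-(T:ℤ)) T, ind g b := by
    have : ∑ e ∈ Icc 1 T, ind g (e:ℤ) = ∑ b ∈ (Icc 1 T).image (fun e : ℕ => (e:ℤ)), ind g b := by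
      rw [sum_image]
      intro x _ y _ hxy
      simpa using hxy
    rw [this]
    apply sum_le_sum_of_subset_of_nonneg
    · intro b hb
      rw [mem_image] at hb
      obtain ⟨e, he, rfl⟩ := hb
      rw [mem_Icc] at he ⊢
      constructor <;> omega
    · intro i _ _
      exact ind_nonneg _ _
  calc ∑ e ∈ Icc 1 T, (e:ℝ) * ind g (e:ℤ) ≤ ∑ e ∈ Icc 1 T, (T:ℝ) * ind g (e:ℤ) := h1
    _ = T * ∑ e ∈ Icc 1 T, ind g (e:ℤ) := by rw [mul_sum]
    _ ≤ T * (3 * T / g) := by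
        apply mul_le_mul_of_nonneg_left _ (by positivity)
        exact h2.trans (sum_ind_le T g hg hgT)

lemma sum_inv_sq_le (T : ℕ) : ∑ g ∈ Icc 1 T, ((g:ℝ)^2)⁻¹ ≤ 2 := by
  rcases Nat.eq_zero_or_pos T with h | h
  · subst h; simp
  · have h1 : Icc 1 T = insert 1 (Ioc 1 T) := by
      ext x; simp only [mem_Icc, mem_insert, mem_Ioc]; omega
    rw [h1, sum_insert (by simp)]
    have := sum_Ioc_inv_sq_le_sub (α := ℝ) (k := 1) (n := T) (by norm_num) h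
    have h3 : (0:ℝ) ≤ (T:ℝ)⁻¹ := by positivity
    norm_num at this ⊢
    linarith

lemma gcd_le_sum (T e : ℕ) (b1 b2 : ℤ) (he : e ∈ Icc 1 T) :
    ((Int.gcd (Int.gcd e b1) b2 : ℕ) : ℝ)
      ≤ ∑ g ∈ Icc 1 T, (g:ℝ) * (ind g e * ind g b1 * ind g b2) := by
  rw [mem_Icc] at he
  set g0 := Int.gcd (Int.gcd e b1) b2 with hg0
  have d1 : (g0:ℤ) ∣ (Int.gcd e b1 : ℤ) := Int.gcd_dvd_left _ _
  have d2 : (g0:ℤ) ∣ b2 := Int.gcd_dvd_right _ _
  have d3 : (g0:ℤ) ∣ (e:ℤ) := d1.trans (Int.gcd_dvd_left _ _)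
  have d4 : (g0:ℤ) ∣ b1 := d1.trans (Int.gcd_dvd_right _ _)
  have hle : g0 ≤ e := by
    have : g0 ∣ e := by exact_mod_cast d3
    exact Nat.le_of_dvd (by omega) this
  have hpos : 1 ≤ g0 := by
    rcases Nat.eq_zero_or_pos g0 with h | h
    · rw [h] at d3
      simp at d3
      omega
    · exact h
  have hmem : g0 ∈ Icc 1 T := by rw [mem_Icc]; omega
  have := single_le_sum (f := fun g : ℕ => (g:ℝ) * (ind g e * ind g b1 * ind g b2))
    (s := Icc 1 T) (fun g _ => by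
      have := ind_nonneg g e
      have := ind_nonneg g b1
      have := ind_nonneg g b2
      positivity) hmem
  refine le_trans ?_ this
  simp only [ind, d3, d4, d2, if_true]
  norm_num

lemma gcd_sum_le (T : ℕ) :
    ∑ e ∈ Icc 1 T, ∑ b1 ∈ Icc (-(T:ℤ)) T, ∑ b2 ∈ Icc (-(T:ℤ)) T,
      (e:ℝ) * ((Int.gcd (Int.gcd e b1) b2 : ℕ) : ℝ) ≤ 54 * (T:ℝ)^4 := by
  have step1 : ∑ e ∈ Icc 1 T, ∑ b1 ∈ Icc (-(T:ℤ)) T, ∑ b2 ∈ Icc (-(T:ℤ)) T,
      (e:ℝ) * ((Int.gcd (Int.gcd e b1) b2 : ℕ) : ℝ)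
      ≤ ∑ e ∈ Icc 1 T, ∑ b1 ∈ Icc (-(T:ℤ)) T, ∑ b2 ∈ Icc (-(T:ℤ)) T,
        ∑ g ∈ Icc 1 T, (g:ℝ) * (((e:ℝ) * ind g e) * ind g b1 * ind g b2) := by
    apply sum_le_sum; intro e he
    apply sum_le_sum; intro b1 _
    apply sum_le_sum; intro b2 _
    have := gcd_le_sum T e b1 b2 he
    calc (e:ℝ) * ((Int.gcd (Int.gcd e b1) b2 : ℕ) : ℝ)
        ≤ (e:ℝ) * ∑ g ∈ Icc 1 T, (g:ℝ) * (ind g e * ind g b1 * ind g b2) := by gcongr
      _ = ∑ g ∈ Icc 1 T, (g:ℝ) * (((e:ℝ) * ind g e) * ind g b1 * ind g b2) := by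
        rw [mul_sum]; apply sum_congr rfl; intro g _; ring
  have step2 : ∑ e ∈ Icc 1 T, ∑ b1 ∈ Icc (-(T:ℤ)) T, ∑ b2 ∈ Icc (-(T:ℤ)) T,
        ∑ g ∈ Icc 1 T, (g:ℝ) * (((e:ℝ) * ind g e) * ind g b1 * ind g b2)
      = ∑ g ∈ Icc 1 T, (g:ℝ) * ((∑ e ∈ Icc 1 T, (e:ℝ) * ind g e) *
          (∑ b1 ∈ Icc (-(T:ℤ)) T, ind g b1) * (∑ b2 ∈ Icc (-(T:ℤ)) T, ind g b2)) := by
    have : ∀ g : ℕ, (g:ℝ) * ((∑ e ∈ Icc 1 T, (e:ℝ) * ind g e) *
          (∑ b1 ∈ Icc (-(T:ℤ)) T, ind g b1) * (∑ b2 ∈ Icc (-(T:ℤ)) T, ind g b2))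
        = ∑ e ∈ Icc 1 T, ∑ b1 ∈ Icc (-(T:ℤ)) T, ∑ b2 ∈ Icc (-(T:ℤ)) T,
          (g:ℝ) * (((e:ℝ) * ind g e) * ind g b1 * ind g b2) := by
      intro g
      rw [sum_mul_sum, sum_mul, mul_sum]
      apply sum_congr rfl; intro e _
      rw [sum_mul, mul_sum]
      apply sum_congr rfl; intro b1 _
      rw [mul_sum, mul_sum]
    simp only [this]
    symm
    rw [sum_comm]
    apply sum_congr rfl; intro e _
    rw [sum_comm]
    apply sum_congr rfl; intro b1 _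
    rw [sum_comm]
  have step3 : ∀ g ∈ Icc 1 T, (g:ℝ) * ((∑ e ∈ Icc 1 T, (e:ℝ) * ind g e) *
          (∑ b1 ∈ Icc (-(T:ℤ)) T, ind g b1) * (∑ b2 ∈ Icc (-(T:ℤ)) T, ind g b2))
      ≤ 27 * (T:ℝ)^4 * ((g:ℝ)^2)⁻¹ := by
    intro g hg
    rw [mem_Icc] at hg
    have h1 := sum_e_ind_le T g hg.1 hg.2
    have h2 := sum_ind_le T g hg.1 hg.2
    have hgpos : (0:ℝ) < g := by exact_mod_cast hg.1
    have n1 : 0 ≤ ∑ e ∈ Icc 1 T, (e:ℝ) * ind g e :=
      sum_nonneg (fun e _ => mul_nonneg (by positivity) (ind_nonneg _ _))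
    have n2 : 0 ≤ ∑ b1 ∈ Icc (-(T:ℤ)) T, ind g b1 := sum_nonneg (fun e _ => ind_nonneg _ _)
    calc (g:ℝ) * ((∑ e ∈ Icc 1 T, (e:ℝ) * ind g e) *
          (∑ b1 ∈ Icc (-(T:ℤ)) T, ind g b1) * (∑ b2 ∈ Icc (-(T:ℤ)) T, ind g b2))
        ≤ (g:ℝ) * ((T * (3 * T / g)) * (3 * T / g) * (3 * T / g)) := by gcongr
      _ = 27 * (T:ℝ)^4 * ((g:ℝ)^2)⁻¹ := by field_simp; ring
  calc _ ≤ _ := step1
    _ = _ := step2
    _ ≤ ∑ g ∈ Icc 1 T, 27 * (T:ℝ)^4 * ((g:ℝ)^2)⁻¹ := sum_le_sum step3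
    _ = 27 * (T:ℝ)^4 * ∑ g ∈ Icc 1 T, ((g:ℝ)^2)⁻¹ := by rw [mul_sum]
    _ ≤ 27 * (T:ℝ)^4 * 2 := by
        apply mul_le_mul_of_nonneg_left (sum_inv_sq_le T) (by positivity)
    _ = 54 * (T:ℝ)^4 := by ring

abbrev X6 := (ℤ × ℤ × ℤ) × (ℤ × ℤ × ℤ)

noncomputable def I (T : ℕ) : Finset ℤ := Icc (-(T:ℤ)) T

noncomputable def Sol (T : ℕ) (k : ℤ) : Finset X6 :=
  (((I T) ×ˢ (I T) ×ˢ (I T)) ×ˢ ((I T) ×ˢ (I T) ×ˢ (I T))).filter
    (fun p => p.1.1 * p.2.1 + p.1.2.1 * p.2.2.1 + p.1.2.2 * p.2.2.2 = k)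

def Q (p : X6) : Prop := 1 ≤ p.1.2.2 ∧ |p.1.1| ≤ p.1.2.2 ∧ |p.1.2.1| ≤ p.1.2.2

instance : DecidablePred Q := fun p => by unfold Q; infer_instance

lemma mem_Sol {T : ℕ} {k : ℤ} {p : X6} : p ∈ Sol T k ↔
    ((-(T:ℤ) ≤ p.1.1 ∧ p.1.1 ≤ T) ∧ (-(T:ℤ) ≤ p.1.2.1 ∧ p.1.2.1 ≤ T) ∧ (-(T:ℤ) ≤ p.1.2.2 ∧ p.1.2.2 ≤ T)) ∧
    ((-(T:ℤ) ≤ p.2.1 ∧ p.2.1 ≤ T) ∧ (-(T:ℤ) ≤ p.2.2.1 ∧ p.2.2.1 ≤ T) ∧ (-(T:ℤ) ≤ p.2.2.2 ∧ p.2.2.2 ≤ T)) ∧
    p.1.1 * p.2.1 + p.1.2.1 * p.2.2.1 + p.1.2.2 * p.2.2.2 = k := by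
  simp only [Sol, I, mem_filter, mem_product, mem_Icc]
  tauto

lemma card_SolQ_le (T : ℕ) (k : ℤ) :
    (((Sol T k).filter Q).card : ℝ) ≤ 486 * (T:ℝ)^4 := by
  set f : X6 → ℕ × ℤ × ℤ := fun p => (p.1.2.2.toNat, p.2.1, p.2.2.1) with hf
  have hmaps : Set.MapsTo f ((Sol T k).filter Q) ((Icc 1 T) ×ˢ (I T) ×ˢ (I T) : Finset (ℕ × ℤ × ℤ)) := by
    intro p hp
    simp only [coe_filter, Set.mem_ofPred_eq, mem_Sol, Q] at hp
    simp only [hf, coe_product, Set.mem_prod, mem_coe, mem_Icc, I]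
    omega
  rw [card_eq_sum_card_fiberwise hmaps]
  push_cast
  rw [sum_product]
  have hfib : ∀ e ∈ Icc 1 T, ∀ b1 b2 : ℤ,
      ((((Sol T k).filter Q).filter (fun p => f p = (e, b1, b2))).card : ℝ)
        ≤ 9 * ((e:ℝ) * ((Int.gcd (Int.gcd e b1) b2 : ℕ) : ℝ)) := by
    intro e he b1 b2
    rw [mem_Icc] at he
    have h := card_two_congr_le e b1 b2 k (by omega)
    have hle : (((Sol T k).filter Q).filter (fun p => f p = (e, b1, b2))).card
        ≤ (((Icc (-(e:ℤ)) e) ×ˢ (Icc (-(e:ℤ)) e)).filter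
            (fun a : ℤ × ℤ => (e:ℤ) ∣ k - a.1 * b1 - a.2 * b2)).card := by
      apply card_le_card_of_injOn (fun p => (p.1.1, p.1.2.1))
      · intro p hp
        simp only [coe_filter, Set.mem_ofPred_eq, mem_filter, mem_Sol, Q, hf, Prod.mk.injEq] at hp
        simp only [coe_filter, Set.mem_ofPred_eq, mem_product, mem_Icc]
        obtain ⟨⟨⟨_, _, h3⟩, hq1, hq2, hq3⟩, h4, h5, h6⟩ := hp
        have he3 : p.1.2.2 = e := by omega
        rw [abs_le] at hq2 hq3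
        refine ⟨⟨⟨by omega, by omega⟩, ⟨by omega, by omega⟩⟩, ?_⟩
        refine ⟨p.2.2.2, ?_⟩
        rw [← h3, h5, h6, he3]; ring
      · intro p hp q hq hpq
        simp only [coe_filter, Set.mem_ofPred_eq, mem_filter, mem_Sol, Q, hf, Prod.mk.injEq] at hp hq hpq
        obtain ⟨⟨⟨_, _, h3⟩, hq1, hq2, hq3⟩, h4, h5, h6⟩ := hp
        obtain ⟨⟨⟨_, _, h3'⟩, hq1', hq2', hq3'⟩, h4', h5', h6'⟩ := hq
        have he3 : p.1.2.2 = e := by omega
        have he3' : q.1.2.2 = e := by omega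
        have hb3 : p.2.2.2 = q.2.2.2 := by
          have : (e:ℤ) * p.2.2.2 = e * q.2.2.2 := by
            rw [he3, h5, h6] at h3
            rw [he3', h5', h6', ← hpq.1, ← hpq.2] at h3'
            linarith
          have he0 : (e:ℤ) ≠ 0 := by omega
          exact mul_left_cancel₀ he0 this
        ext <;> simp [*]
    have h' : ((((Icc (-(e:ℤ)) e) ×ˢ (Icc (-(e:ℤ)) e)).filter
            (fun a : ℤ × ℤ => (e:ℤ) ∣ k - a.1 * b1 - a.2 * b2)).card : ℝ)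
        ≤ 9 * (e:ℝ) * ((Int.gcd (Int.gcd e b1) b2 : ℕ) : ℝ) := by exact_mod_cast h
    calc _ ≤ ((((Icc (-(e:ℤ)) e) ×ˢ (Icc (-(e:ℤ)) e)).filter
            (fun a : ℤ × ℤ => (e:ℤ) ∣ k - a.1 * b1 - a.2 * b2)).card : ℝ) := by exact_mod_cast hle
      _ ≤ _ := h'
      _ = _ := by ring
  calc _ ≤ ∑ e ∈ Icc 1 T, ∑ b ∈ (I T) ×ˢ (I T), 9 * ((e:ℝ) * ((Int.gcd (Int.gcd e b.1) b.2 : ℕ) : ℝ)) := by
        apply sum_le_sum; intro e he
        apply sum_le_sum; intro b _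
        exact hfib e he b.1 b.2
    _ = 9 * ∑ e ∈ Icc 1 T, ∑ b1 ∈ Icc (-(T:ℤ)) T, ∑ b2 ∈ Icc (-(T:ℤ)) T,
          (e:ℝ) * ((Int.gcd (Int.gcd e b1) b2 : ℕ) : ℝ) := by
        rw [mul_sum]; apply sum_congr rfl; intro e _
        rw [sum_product, mul_sum]; apply sum_congr rfl; intro b1 _
        rw [mul_sum]; rfl
    _ ≤ 9 * (54 * (T:ℝ)^4) := by
        apply mul_le_mul_of_nonneg_left (gcd_sum_le T) (by norm_num)
    _ = 486 * (T:ℝ)^4 := by ring

def ng (p : X6) : X6 := ((-p.1.1, -p.1.2.1, -p.1.2.2), (-p.2.1, -p.2.2.1, -p.2.2.2))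
def s13 (p : X6) : X6 := ((p.1.2.2, p.1.2.1, p.1.1), (p.2.2.2, p.2.2.1, p.2.1))
def s23 (p : X6) : X6 := ((p.1.1, p.1.2.2, p.1.2.1), (p.2.1, p.2.2.2, p.2.2.1))

lemma ng_inj : Function.Injective ng := by
  intro p q h
  simp only [ng, Prod.mk.injEq, neg_inj] at h
  ext <;> simp [h]
lemma s13_inj : Function.Injective s13 := by
  intro p q h
  simp only [s13, Prod.mk.injEq] at h
  ext <;> simp [h]
lemma s23_inj : Function.Injective s23 := by
  intro p q h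
  simp only [s23, Prod.mk.injEq] at h
  ext <;> simp [h]

lemma ng_maps {T : ℕ} {k : ℤ} {p : X6} (h : p ∈ Sol T k) : ng p ∈ Sol T k := by
  rw [mem_Sol] at h ⊢
  simp only [ng]
  refine ⟨by omega, by omega, ?_⟩
  linarith [h.2.2]
lemma s13_maps {T : ℕ} {k : ℤ} {p : X6} (h : p ∈ Sol T k) : s13 p ∈ Sol T k := by
  rw [mem_Sol] at h ⊢
  simp only [s13]
  refine ⟨by omega, by omega, ?_⟩
  linarith [h.2.2]
lemma s23_maps {T : ℕ} {k : ℤ} {p : X6} (h : p ∈ Sol T k) : s23 p ∈ Sol T k := by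
  rw [mem_Sol] at h ⊢
  simp only [s23]
  refine ⟨by omega, by omega, ?_⟩
  linarith [h.2.2]

lemma card_filter_comp_le (T : ℕ) (k : ℤ) (φ : X6 → X6) (hi : Function.Injective φ)
    (hm : ∀ p ∈ Sol T k, φ p ∈ Sol T k) :
    ((Sol T k).filter (fun p => Q (φ p))).card ≤ ((Sol T k).filter Q).card := by
  apply card_le_card_of_injOn φ
  · intro p hp
    rw [mem_coe, mem_filter] at hp ⊢
    exact ⟨hm p hp.1, hp.2⟩
  · exact hi.injOn

lemma card_Sol_zero_le (T : ℕ) (k : ℤ) :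
    ((Sol T k).filter (fun p => p.1 = (0, 0, 0))).card ≤ (2 * T + 1)^3 := by
  have : ((I T) ×ˢ (I T) ×ˢ (I T)).card = (2 * T + 1)^3 := by
    simp only [card_product, I, Int.card_Icc]
    have : ((T:ℤ) + 1 - -(T:ℤ)).toNat = 2 * T + 1 := by omega
    rw [this]; ring
  rw [← this]
  apply card_le_card_of_injOn (fun p => p.2)
  · intro p hp
    rw [mem_coe, mem_filter, mem_Sol] at hp
    simp only [I, coe_product, Set.mem_prod, mem_coe, mem_Icc]
    tauto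
  · intro p hp q hq hpq
    rw [mem_coe, mem_filter] at hp hq
    ext1
    · rw [hp.2, hq.2]
    · exact hpq

lemma cover_cases (p : X6) : p.1 = (0,0,0) ∨ Q p ∨ Q (ng p) ∨ Q (s13 p) ∨ Q (ng (s13 p)) ∨
    Q (s23 p) ∨ Q (ng (s23 p)) := by
  obtain ⟨⟨a1, a2, a3⟩, b⟩ := p
  simp only [Q, ng, s13, s23, abs_neg, Prod.mk.injEq]
  rcases abs_cases a1 with ⟨h1, h1'⟩ | ⟨h1, h1'⟩ <;> rcases abs_cases a2 with ⟨h2, h2'⟩ | ⟨h2, h2'⟩ <;>
    rcases abs_cases a3 with ⟨h3, h3'⟩ | ⟨h3, h3'⟩ <;> rw [h1, h2, h3] <;> omega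

lemma card_Sol_le (T : ℕ) (hT : 1 ≤ T) (k : ℤ) : ((Sol T k).card : ℝ) ≤ 2943 * (T:ℝ)^4 := by
  have hcover : Sol T k ⊆ (Sol T k).filter (fun p => p.1 = (0, 0, 0)) ∪
      ((Sol T k).filter Q ∪ ((Sol T k).filter (fun p => Q (ng p)) ∪
      ((Sol T k).filter (fun p => Q (s13 p)) ∪ ((Sol T k).filter (fun p => Q (ng (s13 p))) ∪
      ((Sol T k).filter (fun p => Q (s23 p)) ∪ (Sol T k).filter (fun p => Q (ng (s23 p)))))))) := by
    intro p hp
    simp only [mem_union, mem_filter, hp, true_and]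
    exact cover_cases p
  have hB := card_SolQ_le T k
  have c1 := card_filter_comp_le T k ng ng_inj (fun p hp => ng_maps hp)
  have c2 := card_filter_comp_le T k s13 s13_inj (fun p hp => s13_maps hp)
  have c3 := card_filter_comp_le T k (fun p => ng (s13 p)) (ng_inj.comp s13_inj)
    (fun p hp => ng_maps (s13_maps hp))
  have c4 := card_filter_comp_le T k s23 s23_inj (fun p hp => s23_maps hp)
  have c5 := card_filter_comp_le T k (fun p => ng (s23 p)) (ng_inj.comp s23_inj)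
    (fun p hp => ng_maps (s23_maps hp))
  have c0 := card_Sol_zero_le T k
  have hcard : (Sol T k).card ≤ (2 * T + 1)^3 + 6 * ((Sol T k).filter Q).card := by
    refine (card_le_card hcover).trans ?_
    refine (card_union_le _ _).trans ?_
    have u1 := card_union_le ((Sol T k).filter Q) ((Sol T k).filter (fun p => Q (ng p)) ∪
      ((Sol T k).filter (fun p => Q (s13 p)) ∪ ((Sol T k).filter (fun p => Q (ng (s13 p))) ∪
      ((Sol T k).filter (fun p => Q (s23 p)) ∪ (Sol T k).filter (fun p => Q (ng (s23 p)))))))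
    have u2 := card_union_le ((Sol T k).filter (fun p => Q (ng p)))
      ((Sol T k).filter (fun p => Q (s13 p)) ∪ ((Sol T k).filter (fun p => Q (ng (s13 p))) ∪
      ((Sol T k).filter (fun p => Q (s23 p)) ∪ (Sol T k).filter (fun p => Q (ng (s23 p))))))
    have u3 := card_union_le ((Sol T k).filter (fun p => Q (s13 p)))
      ((Sol T k).filter (fun p => Q (ng (s13 p))) ∪
      ((Sol T k).filter (fun p => Q (s23 p)) ∪ (Sol T k).filter (fun p => Q (ng (s23 p)))))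
    have u4 := card_union_le ((Sol T k).filter (fun p => Q (ng (s13 p))))
      ((Sol T k).filter (fun p => Q (s23 p)) ∪ (Sol T k).filter (fun p => Q (ng (s23 p))))
    have u5 := card_union_le ((Sol T k).filter (fun p => Q (s23 p)))
      ((Sol T k).filter (fun p => Q (ng (s23 p))))
    omega
  have hT' : (1:ℝ) ≤ T := by exact_mod_cast hT
  have h3 : ((2 * T + 1 : ℕ):ℝ)^3 ≤ 27 * (T:ℝ)^4 := by
    push_cast
    have h1 : (2 * (T:ℝ) + 1)^3 ≤ (3 * (T:ℝ))^3 := by gcongr; linarith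
    have h2 : (T:ℝ)^3 ≤ (T:ℝ)^4 := by
      have : (T:ℝ)^4 = (T:ℝ)^3 * T := by ring
      rw [this]
      have : 0 < (T:ℝ)^3 := by positivity
      nlinarith
    nlinarith
  calc ((Sol T k).card : ℝ) ≤ (((2 * T + 1)^3 + 6 * ((Sol T k).filter Q).card : ℕ) : ℝ) := by
        exact_mod_cast hcard
    _ = ((2 * T + 1 : ℕ):ℝ)^3 + 6 * (((Sol T k).filter Q).card : ℝ) := by push_cast; ring
    _ ≤ 27 * (T:ℝ)^4 + 6 * (486 * (T:ℝ)^4) := by gcongr
    _ = 2943 * (T:ℝ)^4 := by ring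

noncomputable def box (d t : ℕ) : Finset (Fin d → ℤ) := Fintype.piFinset (fun _ => I t)

lemma mem_box {d t : ℕ} {x : Fin d → ℤ} : x ∈ box d t ↔ ∀ i, -(t:ℤ) ≤ x i ∧ x i ≤ t := by
  simp [box, I, Fintype.mem_piFinset]

noncomputable def En (d t : ℕ) (k : ℤ) : Finset ((Fin d → ℤ) × (Fin d → ℤ)) :=
  (box d t ×ˢ box d t).filter (fun p => ∑ i, (p.1 i)^2 - ∑ i, (p.2 i)^2 = k)

lemma mem_En {d t : ℕ} {k : ℤ} {p : (Fin d → ℤ) × (Fin d → ℤ)} : p ∈ En d t k ↔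
    (∀ i, -(t:ℤ) ≤ p.1 i ∧ p.1 i ≤ t) ∧ (∀ i, -(t:ℤ) ≤ p.2 i ∧ p.2 i ≤ t) ∧
      ∑ i, (p.1 i)^2 - ∑ i, (p.2 i)^2 = k := by
  simp only [En, mem_filter, mem_product, mem_box]
  tauto

lemma card_En_three (t : ℕ) (ht : 1 ≤ t) (k : ℤ) : ((En 3 t k).card : ℝ) ≤ 47088 * (t:ℝ)^4 := by
  have h : (En 3 t k).card ≤ (Sol (2 * t) k).card := by
    apply card_le_card_of_injOn (fun p => ((p.1 0 - p.2 0, p.1 1 - p.2 1, p.1 2 - p.2 2),
      (p.1 0 + p.2 0, p.1 1 + p.2 1, p.1 2 + p.2 2)))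
    · intro p hp
      rw [mem_coe, mem_En] at hp
      rw [mem_coe, mem_Sol]
      obtain ⟨h1, h2, h3⟩ := hp
      have a0 := h1 0; have a1 := h1 1; have a2 := h1 2
      have b0 := h2 0; have b1 := h2 1; have b2 := h2 2
      push_cast
      refine ⟨⟨by omega, by omega, by omega⟩, ⟨by omega, by omega, by omega⟩, ?_⟩
      rw [← h3, Fin.sum_univ_three, Fin.sum_univ_three]
      ring
    · intro p _ q _ hpq
      simp only [Prod.mk.injEq] at hpq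
      obtain ⟨⟨h1, h2, h3⟩, h4, h5, h6⟩ := hpq
      ext i
      · fin_cases i <;> simp <;> omega
      · fin_cases i <;> simp <;> omega
  have h2 := card_Sol_le (2 * t) (by omega) k
  calc ((En 3 t k).card : ℝ) ≤ ((Sol (2 * t) k).card : ℝ) := by exact_mod_cast h
    _ ≤ 2943 * ((2 * t : ℕ):ℝ)^4 := h2
    _ = 47088 * (t:ℝ)^4 := by push_cast; ring

lemma card_En_succ (d t : ℕ) (B : ℕ) (hB : ∀ k, (En d t k).card ≤ B) (k : ℤ) :
    (En (d+1) t k).card ≤ B * (2 * t + 1)^2 := by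
  have hI : ((I t) ×ˢ (I t)).card = (2 * t + 1)^2 := by
    simp only [card_product, I, Int.card_Icc]
    have : ((t:ℤ) + 1 - -(t:ℤ)).toNat = 2 * t + 1 := by omega
    rw [this]; ring
  set f : ((Fin (d+1) → ℤ) × (Fin (d+1) → ℤ)) → ℤ × ℤ := fun p => (p.1 0, p.2 0) with hf
  have h1 : (En (d+1) t k).card ≤ B * ((En (d+1) t k).image f).card := by
    apply card_le_mul_card_image
    intro b _
    refine le_trans ?_ (hB (k - b.1^2 + b.2^2))
    apply card_le_card_of_injOn (fun p : (Fin (d+1) → ℤ) × (Fin (d+1) → ℤ) => ((fun i => p.1 i.succ : Fin d → ℤ), (fun i => p.2 i.succ : Fin d → ℤ)))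
    · intro p hp
      rw [mem_coe, mem_filter, mem_En] at hp
      rw [mem_coe, mem_En]
      obtain ⟨⟨h1, h2, h3⟩, h4⟩ := hp
      refine ⟨fun i => h1 i.succ, fun i => h2 i.succ, ?_⟩
      rw [Fin.sum_univ_succ, Fin.sum_univ_succ] at h3
      simp only [hf] at h4
      rw [← h4, ← h3]
      ring
    · intro p hp q hq hpq
      rw [mem_coe, mem_filter] at hp hq
      simp only [Prod.mk.injEq] at hpq
      have hp0 := hp.2
      have hq0 := hq.2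
      simp only [hf] at hp0 hq0
      rw [← hq0] at hp0
      simp only [Prod.mk.injEq] at hp0
      ext i
      · refine Fin.cases hp0.1 (fun j => ?_) i
        exact congrFun hpq.1 j
      · refine Fin.cases hp0.2 (fun j => ?_) i
        exact congrFun hpq.2 j
  have h2 : ((En (d+1) t k).image f).card ≤ (2 * t + 1)^2 := by
    rw [← hI]
    apply card_le_card
    intro b hb
    rw [mem_image] at hb
    obtain ⟨p, hp, rfl⟩ := hb
    rw [mem_En] at hp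
    simp only [hf, mem_product, I, mem_Icc]
    exact ⟨hp.1 0, hp.2.1 0⟩
  calc _ ≤ _ := h1
    _ ≤ _ := Nat.mul_le_mul_left _ h2

lemma card_En_le (j t : ℕ) (ht : 1 ≤ t) (k : ℤ) :
    (En (3 + j) t k).card ≤ 47088 * t^4 * ((2 * t + 1)^2)^j := by
  induction j generalizing k with
  | zero =>
    have := card_En_three t ht k
    simp only [pow_zero, mul_one]
    exact_mod_cast this
  | succ j ih =>
    have := card_En_succ (3 + j) t _ ih k
    calc _ ≤ _ := this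
      _ = _ := by rw [pow_succ]; ring

lemma sq_card_le_image {α β : Type*} [DecidableEq α] [DecidableEq β] (s : Finset α) (f : α → β) :
    s.card^2 ≤ (s.image f).card * ((s ×ˢ s).filter (fun p => f p.1 = f p.2)).card := by
  have h1 : s.card = ∑ b ∈ s.image f, (s.filter (fun a => f a = b)).card :=
    card_eq_sum_card_fiberwise (fun a ha => mem_coe.mpr (mem_image_of_mem f (mem_coe.mp ha)))
  have h2 : ((s ×ˢ s).filter (fun p => f p.1 = f p.2)).card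
      = ∑ b ∈ s.image f, (s.filter (fun a => f a = b)).card^2 := by
    rw [card_eq_sum_card_fiberwise (f := fun p : α × α => f p.1) (t := s.image f)]
    · apply sum_congr rfl
      intro b _
      rw [sq, ← card_product]
      congr 1
      ext ⟨x, y⟩
      simp only [mem_filter, mem_product]
      constructor
      · rintro ⟨⟨⟨hx, hy⟩, hxy⟩, hb⟩
        exact ⟨⟨hx, hb⟩, hy, hxy ▸ hb⟩
      · rintro ⟨⟨hx, hb⟩, hy, hb'⟩
        exact ⟨⟨⟨hx, hy⟩, hb.trans hb'.symm⟩, hb⟩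
    · intro p hp
      rw [mem_coe, mem_filter, mem_product] at hp
      exact mem_coe.mpr (mem_image_of_mem f hp.1.1)
  rw [h2, h1]
  exact sq_sum_le_card_mul_sum_sq

/-- key geometric consequence: points with integer coordinates in [1,t] -/
lemma pinned_core (j t : ℕ) (S : Finset (EuclideanSpace ℝ (Fin (3 + j))))
    (p : EuclideanSpace ℝ (Fin (3 + j)))
    (hS : ∀ x ∈ S, ∀ i, ∃ m : ℕ, 1 ≤ m ∧ m ≤ t ∧ x i = m)
    (hp : ∀ i, ∃ m : ℕ, 1 ≤ m ∧ m ≤ t ∧ p i = m) :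
    S.card^2 ≤ (S.image (fun q => dist p q)).card * (47088 * t^4 * ((2 * t + 1)^2)^j) := by
  classical
  rcases Nat.eq_zero_or_pos t with ht | ht
  · subst ht
    obtain ⟨m, h1, h2, _⟩ := hp ⟨0, by omega⟩
    omega
  refine (sq_card_le_image S (fun q => dist p q)).trans ?_
  apply Nat.mul_le_mul_left
  refine le_trans ?_ (card_En_le j t ht 0)
  set z : EuclideanSpace ℝ (Fin (3 + j)) → (Fin (3 + j) → ℤ) := fun q i => ⌊q i⌋ - ⌊p i⌋ with hz
  have hzr : ∀ q ∈ S, ∀ i, ((z q i : ℤ) : ℝ) = q i - p i := by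
    intro q hq i
    obtain ⟨m, _, _, hm⟩ := hS q hq i
    obtain ⟨m', _, _, hm'⟩ := hp i
    simp only [hz, hm, hm']
    push_cast
    simp
  have hzb : ∀ q ∈ S, ∀ i, -(t:ℤ) ≤ z q i ∧ z q i ≤ t := by
    intro q hq i
    obtain ⟨m, h1, h2, hm⟩ := hS q hq i
    obtain ⟨m', h1', h2', hm'⟩ := hp i
    simp only [hz, hm, hm', Int.floor_natCast]
    omega
  have hdist : ∀ q ∈ S, (dist p q)^2 = ((∑ i, (z q i)^2 : ℤ) : ℝ) := by
    intro q hq
    rw [EuclideanSpace.dist_eq, Real.sq_sqrt (by positivity)]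
    push_cast
    apply sum_congr rfl
    intro i _
    rw [hzr q hq i, Real.dist_eq, sq_abs]
    ring
  apply card_le_card_of_injOn (fun pq => (z pq.1, z pq.2))
  · intro pq hpq
    rw [mem_coe, mem_filter, mem_product] at hpq
    rw [mem_coe, mem_En]
    refine ⟨hzb _ hpq.1.1, hzb _ hpq.1.2, ?_⟩
    have h1 := hdist _ hpq.1.1
    have h2 := hdist _ hpq.1.2
    rw [hpq.2, h2] at h1
    have : (∑ i, (z pq.2 i)^2 : ℤ) = ∑ i, (z pq.1 i)^2 := by exact_mod_cast h1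
    simp only
    rw [this]; ring
  · intro a ha b hb hab
    rw [mem_coe, mem_filter, mem_product] at ha hb
    simp only [Prod.mk.injEq] at hab
    have key : ∀ q ∈ S, ∀ q' ∈ S, z q = z q' → q = q' := by
      intro q hq q' hq' h
      ext i
      have h1 := hzr q hq i
      have h2 := hzr q' hq' i
      rw [h] at h1
      linarith
    ext1
    · exact key _ ha.1.1 _ hb.1.1 hab.1
    · exact key _ ha.1.2 _ hb.1.2 hab.2

end Vale.Agent.P054
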